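import Vale.Agent.P235.ST.H317.Defs2
import Vale.Agent.P235.ST.H119.Clock
import Vale.Agent.P235.ST.H188.RowsPlan
import Vale.Agent.P235.ST.H611.Cost

/-! P235 (ST): rows r11 `stretch` and r12 `stretches` (helper651), official literals. -/

namespace Vale.Agent.P235.STO.H651

open SimpleGraph

variable {V : Type} (W : LWorld V)

/-! ### small facts -/

theorem u_walk {x y : V} (g : W.G.Walk x y) : |W.u x - W.u y| ≤ (g.length : ℤ) := by
  induction g with
  | nil => simp
  | cons h q ih =>
    have h1 := W.unit _ _ h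
    rw [Walk.length_cons]
    push_cast
    rw [abs_le] at ih ⊢
    rcases (abs_eq (by norm_num : (0 : ℤ) ≤ 1)).1 h1 with h2 | h2 <;> constructor <;> omega

theorem u_dist (x y : V) : |(W.u x : ℝ) - W.u y| ≤ W.d x y := by
  obtain ⟨g, hg⟩ := W.conn.exists_walk_length_eq_dist x y
  have h := u_walk W g
  rw [hg] at h
  unfold LWorld.d
  exact_mod_cast h

theorem d_tri (x y z : V) : W.d x z ≤ W.d x y + W.d y z := by
  unfold LWorld.d
  exact_mod_cast W.conn.dist_triangle

theorem d_comm (x y : V) : W.d x y = W.d y x := by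
  unfold LWorld.d
  rw [SimpleGraph.dist_comm]

theorem d_nonneg (x y : V) : 0 ≤ W.d x y := by
  unfold LWorld.d; positivity

theorem d_walk {x y : V} (g : W.G.Walk x y) : W.d x y ≤ g.length := by
  unfold LWorld.d
  exact_mod_cast SimpleGraph.dist_le g

/-- a vertex of a geodesic is not farther from its start than the end -/
theorem d_geo {x y z : V} (g : W.G.Walk x y) (hg : g.length = W.G.dist x y)
    (hz : z ∈ g.support) : W.d x z ≤ W.d x y := by
  classical
  have h1 : (g.takeUntil z hz).length ≤ g.length := g.length_takeUntil_le_length hz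
  have h2 := d_walk W (g.takeUntil z hz)
  have h3 : ((g.takeUntil z hz).length : ℝ) ≤ g.length := by exact_mod_cast h1
  have h4 : (g.length : ℝ) = W.d x y := by unfold LWorld.d; exact_mod_cast hg
  linarith

/-- distance along a line -/
theorem d_line {y c : V} (hy : y ∈ W.N) (hc : c ∈ W.L y) :
    W.d c y ≤ |(W.u c : ℝ) - W.u y| := by
  have hyy := W.mem_L y hy
  rcases le_total (W.u c) (W.u y) with h | h
  · obtain ⟨q, hq, -⟩ := W.L_path y hy c hc y hyy h
    have h1 := d_walk W q
    have h2 : (q.length : ℝ) = W.u y - W.u c := by exact_mod_cast hq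
    have h3 := neg_le_abs ((W.u c : ℝ) - W.u y)
    linarith
  · obtain ⟨q, hq, -⟩ := W.L_path y hy y hyy c hc h
    have h1 := d_walk W q
    have h2 : (q.length : ℝ) = W.u c - W.u y := by exact_mod_cast hq
    have h3 := le_abs_self ((W.u c : ℝ) - W.u y)
    rw [d_comm W c y]
    linarith

theorem band_shift (k m : ℕ) (a z : V) (h0 : 0 ≤ W.pos k m a + (W.u z - W.u a))
    (h1 : W.pos k m a + (W.u z - W.u a) < th k) :
    W.bi k m z = W.bi k m a ∧ W.pos k m z = W.pos k m a + (W.u z - W.u a) := by
  have hT : (0 : ℤ) < th k := by unfold th; positivity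
  have h2 : (W.u a + m * 2 ^ k) % th k + th k * ((W.u a + m * 2 ^ k) / th k)
      = W.u a + m * 2 ^ k := Int.emod_add_mul_ediv _ _
  have := (Int.ediv_emod_unique hT (a := W.u z + m * 2 ^ k) (q := W.bi k m a)
    (r := W.pos k m a + (W.u z - W.u a))).2 ⟨?_, h0, h1⟩
  · exact this
  · unfold LWorld.pos LWorld.bi at *
    linarith

section take

variable {W} {a b : V}

theorem take_sub (g : W.G.Walk a b) (j : ℕ) {z : V} (hz : z ∈ (g.take j).support) :
    z ∈ g.support := by
  rw [Walk.support_take] at hz
  exact List.mem_of_mem_take hz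

theorem take_idx (g : W.G.Walk a b) (j : ℕ) {z : V} (hz : z ∈ (g.take j).support) :
    ∃ i, i ≤ j ∧ i ≤ g.length ∧ g.getVert i = z := by
  obtain ⟨n, hn, hl⟩ := Walk.mem_support_iff_exists_getVert.1 hz
  rw [Walk.take_length] at hl
  rw [Walk.take_getVert] at hn
  refine ⟨n, le_trans hl (min_le_left _ _), le_trans hl (min_le_right _ _), ?_⟩
  rw [← hn]
  congr 1
  exact (min_eq_right (le_trans hl (min_le_left _ _))).symm

theorem idx_take (g : W.G.Walk a b) {i j : ℕ} (h : i ≤ j) :
    g.getVert i ∈ (g.take j).support := by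
  have h1 : (g.take j).getVert i = g.getVert i := by
    rw [Walk.take_getVert, min_eq_right h]
  rw [← h1]
  exact Walk.getVert_mem_support _ _

end take

theorem cost_nonneg {G : SimpleGraph V} (w : V → ℝ) {x y : V} (p : G.Walk x y) :
    0 ≤ cost w p := by
  induction p with
  | nil => simp [cost]
  | cons h q ih => simp only [cost]; positivity

theorem cost_append' {G : SimpleGraph V} (w : V → ℝ) {x y z : V} (p : G.Walk x y)
    (q : G.Walk y z) : cost w (p.append q) = cost w p + cost w q := by
  induction p with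
  | nil => simp [cost]
  | cons h p ih => simp only [Walk.cons_append, cost, ih]; ring

/-- cost of an initial part of an initial part -/
theorem cost_take_le {G : SimpleGraph V} (w : V → ℝ) {x y : V} (g : G.Walk x y) {i j : ℕ}
    (h : i ≤ j) : cost w (g.take i) ≤ cost w (g.take j) := by
  induction g generalizing i j with
  | nil => simp [Walk.take, cost]
  | cons hh q ih =>
    cases i with
    | zero =>
      have : cost w ((Walk.cons hh q).take 0) = 0 := by simp [Walk.take, Walk.copy, cost]
      rw [this]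
      exact cost_nonneg w _
    | succ i =>
      cases j with
      | zero => omega
      | succ j =>
        simp only [Walk.take, cost]
        exact add_le_add (le_refl _) (ih (i := i) (j := j) (by omega))

/-! ### the row -/

variable [Fintype V]

/-- hop: the next lined vertex -/
theorem stretch_hop {ρ w : V → ℝ} (hw : W.Inv (W.nxt ρ) w) {p a b : V}
    {k m : ℕ} (g : W.G.Walk a b) (hg : g.IsPath) (hr : W.Reg ρ p k m g)
    (hb : b ∈ W.N) (hne : a ≠ b) (hs : W.nxt ρ a ≤ 4 / kap) :
    ∃ (c : V) (g1 : W.G.Walk a c) (g2 : W.G.Walk c b), g = g1.append g2 ∧ 0 < g1.length ∧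
      c ∈ W.N ∧ (W.D k m c : ℝ) ≤ W.D k m a + (5 / 4) * cost w g1 := by
  classical
  have hlen : 0 < g.length := by
    rcases Nat.eq_zero_or_pos g.length with h | h
    · exact absurd (Walk.eq_of_length_eq_zero h) hne
    · exact h
  have hex : ∃ j, 0 < j ∧ j ≤ g.length ∧ g.getVert j ∈ W.N :=
    ⟨g.length, hlen, le_rfl, by simpa using hb⟩
  obtain ⟨hj0, hjl, hjN⟩ := Nat.find_spec hex
  have hmin : ∀ i, 0 < i → i < Nat.find hex → g.getVert i ∉ W.N := fun i h0 hi hN =>
    Nat.find_min hex hi ⟨h0, hi.le.trans hjl, hN⟩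
  generalize Nat.find hex = j at hj0 hjl hjN hmin
  have hl1 : (g.take j).length = j := by rw [Walk.take_length, min_eq_left hjl]
  refine ⟨g.getVert j, g.take j, g.drop j, (g.append_take_drop_eq j).symm, by omega, hjN, ?_⟩
  have h1 := H611.hop_cost W (H188.nxt_scale W ρ) hw (g.take j) (hg.take j) (by
    intro z hz hza hzc
    obtain ⟨i, hi, hil, rfl⟩ := take_idx g j hz
    refine hmin i ?_ ?_
    · rcases Nat.eq_zero_or_pos i with h | h
      · subst h; simp at hza
      · exact h
    · rcases hi.lt_or_eq with h | h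
      · exact h
      · subst h; exact absurd rfl hzc) hs
  obtain ⟨h2, h3⟩ := H119.reach_of_walk W k m (g.take j) (fun z hz => hr.same z (take_sub g j hz))
  have h4 := H119.D_lip W k m h2
  have h5 : (W.D k m (g.getVert j) : ℝ) ≤ W.D k m a + (W.Bg k m).dist a (g.getVert j) := by
    exact_mod_cast h4
  have h6 : ((W.Bg k m).dist a (g.getVert j) : ℝ) ≤ (g.take j).length := by exact_mod_cast h3
  linarith

/-- what an unserved pair near `a` gives -/
theorem centre {ρ : V → ℝ} (hρ : W.Scale ρ) {p a b : V} {k m : ℕ}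
    (g : W.G.Walk a b) (hr : W.Reg ρ p k m g) (ha : a ∈ W.N)
    (hs : 4 / kap < W.nxt ρ a) :
    ∃ (z y : V) (t : ℝ), y ∈ W.N ∧ W.idx a ≤ W.idx y ∧ t = W.d z y ∧ 0 < t ∧ t ≤ 32 * d1 * ρ p ∧
      W.nxt ρ a ≤ t ∧ W.d a z ≤ kap * t ∧ W.u z = W.u y ∧ a ∉ W.L y ∧
      (W.Bg k m).Reachable a y ∧
      (W.D k m y : ℝ) ≤ W.D k m a + (kap + cp) * t := by
  classical
  have hk : (0 : ℝ) < kap := by unfold kap; positivity
  have hs0 : 0 < W.nxt ρ a := lt_trans (by positivity) hs
  obtain ⟨z, y, hu, he⟩ := H188.nxt_attain W hs0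
  have hule := H188.uns_le W hρ hu
  obtain ⟨hzN, hyN, huz, hix, hr0, h2t, hns⟩ := hu
  set t := W.d z y with ht
  have hr0' : (2 : ℝ) ^ 90 ≤ t := hr0
  have ht0 : 0 < t := lt_of_lt_of_le (by positivity) hr0'
  have hda0 := d_nonneg W a z
  have hnt : W.nxt ρ a ≤ t := by
    have : 0 ≤ W.d a z / kap := by positivity
    linarith
  have hda : W.d a z ≤ kap * t := by
    have h1 : W.d a z / kap ≤ t := by linarith
    rw [div_le_iff₀ hk] at h1
    linarith
  -- sizes
  have hR : (2 : ℝ) ^ 100 ≤ ρ p := hr.big
  have hlo := hr.lo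
  have hhi := hr.hi
  have hball := hr.ball a g.start_mem_support
  have hrho1 : |ρ p - ρ a| ≤ ρ p / 4 + 2 ^ 22 := by
    refine (hρ.lip p a).trans ?_
    rw [div_le_iff₀ hk]
    have : (ρ p / 4 + 2 ^ 22) * kap = kap * ρ p / 4 + 1 := by unfold kap; ring
    linarith
  have hrho2 : |ρ a - ρ z| ≤ t := by
    refine (hρ.lip a z).trans ?_
    rw [div_le_iff₀ hk]
    linarith
  rw [abs_le] at hrho1 hrho2
  unfold d1 at hule hlo
  unfold dl at hhi
  have hz1 : ρ z ≤ 1.27 * ρ p := by
    norm_num at hule hR hlo ⊢
    linarith [hrho1.1, hrho2.1]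
  have hz2 : 0.73 * ρ p ≤ ρ z := by
    norm_num at hule hR hlo ⊢
    linarith [hrho1.2, hrho2.2]
  have ht1 : t ≤ 32 * d1 * ρ p := by
    unfold d1
    norm_num at hule hR hlo hz1 ⊢
    linarith
  have hP : (0 : ℝ) < 2 ^ k := by positivity
  have hth : (th k : ℝ) = 16 * 2 ^ k := by unfold th; push_cast; ring
  have ht2 : t ≤ 8 * 2 ^ k := by
    unfold d1 at ht1
    rw [hth] at hlo
    norm_num at ht1 hR hlo ⊢
    linarith
  have hin : inList (ρ z) k := by
    constructor
    · unfold d1
      norm_num at hlo hR hz1 ⊢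
      linarith
    · unfold dl
      norm_num at hhi hR hz2 ⊢
      linarith
  -- position of z
  have hduz : |(W.u a : ℝ) - W.u z| ≤ kap * t := (u_dist W a z).trans hda
  have hkt : kap * t ≤ 2 ^ k := by
    unfold kap
    norm_num at ht2 ⊢
    linarith
  have hband := hr.band a g.start_mem_support
  have hduz' : |W.u a - W.u z| ≤ 2 ^ k := by
    have : |(W.u a : ℝ) - W.u z| ≤ 2 ^ k := hduz.trans hkt
    exact_mod_cast this
  -- all vertices near a are in the same band
  have hnear : ∀ x, |(W.u a : ℝ) - W.u x| ≤ 2 ^ k →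
      W.bi k m x = W.bi k m a ∧ W.pos k m x = W.pos k m a + (W.u x - W.u a) := by
    intro x hx
    have hx' : |W.u a - W.u x| ≤ 2 ^ k := by exact_mod_cast hx
    rw [abs_le] at hx'
    have hPk : (0 : ℤ) < 2 ^ k := by positivity
    apply band_shift
    · linarith [hband.1]
    · unfold th
      linarith [hband.2]
  have hzz := hnear z (hduz.trans hkt)
  have hmid : W.mid k m z := by
    unfold LWorld.mid
    rw [hzz.2]
    rw [abs_le] at hduz'
    have hPk : (0 : ℤ) < 2 ^ k := by positivity
    constructor <;> linarith [hband.1, hband.2]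
  have hsv := hns k m hr.m16 hin
  unfold LWorld.serves at hsv
  push Not at hsv
  obtain ⟨hre, hD⟩ := hsv hmid
  -- geodesic a to z
  obtain ⟨q, hq⟩ := W.conn.exists_walk_length_eq_dist a z
  have hqd : ∀ x ∈ q.support, W.d a x ≤ kap * t := fun x hx => (d_geo W q hq hx).trans hda
  obtain ⟨h2, h3⟩ := H119.reach_of_walk W k m q (fun x hx =>
    (hnear x ((u_dist W a x).trans ((hqd x hx).trans hkt))).1)
  have h4 := H119.D_lip W k m h2
  have h5 : (W.D k m z : ℝ) ≤ W.D k m a + (W.Bg k m).dist a z := by exact_mod_cast h4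
  have h6 : ((W.Bg k m).dist a z : ℝ) ≤ q.length := by exact_mod_cast h3
  have h7 : (q.length : ℝ) = W.d a z := by unfold LWorld.d; exact_mod_cast hq
  have hk1 : kap * t ≤ t / 8 := by
    unfold kap
    norm_num
    linarith
  -- short distances to the line of y
  have hline : ∀ x, x ∈ W.L y → W.d z x ≤ kap * t → False := by
    intro x hx hzx
    have h8 := d_line W hyN hx
    have h9 : |(W.u x : ℝ) - W.u y| ≤ kap * t := by
      rw [← huz, abs_sub_comm]
      exact (u_dist W z x).trans hzx
    have h10 := d_tri W z x y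
    linarith
  refine ⟨z, y, t, hyN, ?_, rfl, ht0, ht1, hnt, hda, huz, ?_, h2.trans hre, ?_⟩
  · by_contra hcon
    push Not at hcon
    obtain ⟨x, hx, hxL⟩ := W.sep y hyN z hzN a ha hix hcon.le q.reverse
    rw [Walk.support_reverse, List.mem_reverse] at hx
    refine hline x hxL ?_
    have hq' : q.reverse.length = W.G.dist z a := by
      rw [Walk.length_reverse, hq, SimpleGraph.dist_comm]
    have := d_geo W q.reverse hq' (by rw [Walk.support_reverse, List.mem_reverse]; exact hx)
    rw [d_comm W z a] at this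
    exact this.trans hda
  · intro haL
    exact hline a haL (by rw [d_comm W z a]; exact hda)
  · have h11 : (kap + cp) * t = kap * t + cp * t := by ring
    linarith

/-- one stretch -/
theorem stretch {ρ w : V → ℝ} (hρ : W.Scale ρ) (hw : W.Inv (W.nxt ρ) w) {p a b : V} {k m : ℕ}
    (g : W.G.Walk a b) (hg : g.IsPath) (hr : W.Reg ρ p k m g) (ha : a ∈ W.N) (hb : b ∈ W.N)
    (hne : a ≠ b) :
    (W.D k m b : ℝ) ≤ W.D k m a + (5 / 4) * cost w g + 64 * d1 * ρ p ∨
    ∃ (c : V) (g1 : W.G.Walk a c) (g2 : W.G.Walk c b), g = g1.append g2 ∧ 0 < g1.length ∧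
      c ∈ W.N ∧ (W.D k m c : ℝ) ≤ W.D k m a + (5 / 4) * cost w g1 := by
  classical
  rcases le_or_gt (W.nxt ρ a) (4 / kap) with hs | hs
  · exact Or.inr (stretch_hop W hw g hg hr hb hne hs)
  have hlen : 0 < g.length := by
    rcases Nat.eq_zero_or_pos g.length with h | h
    · exact absurd (Walk.eq_of_length_eq_zero h) hne
    · exact h
  obtain ⟨z, y, t, hyN, hay, ht, ht0, ht1, hnt, hda, huz, haL, hre, hD⟩ := centre W hρ g hr ha hs
  have hR : (2 : ℝ) ^ 100 ≤ ρ p := hr.big
  have hnn := (H188.nxt_scale W ρ).nonneg a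
  -- the clock at a later lined vertex with index at most that of y
  have hclock : ∀ c, c ∈ W.N → (W.Bg k m).Reachable a c → W.idx c ≤ W.idx y →
      (W.D k m c : ℝ) ≤ W.D k m a + (kap + cp) * t + |(W.u c : ℝ) - W.u z| := by
    intro c hc hac hcy
    have h1 := H119.D_M W k m hc hyN (hac.symm.trans hre) hcy
    have h2 : (W.D k m c : ℝ) ≤ W.D k m y + |(W.u c : ℝ) - W.u y| := by exact_mod_cast h1
    rw [← huz] at h2
    linarith
  by_cases hex : ∃ j, 0 < j ∧ j ≤ g.length ∧ g.getVert j ∈ W.N ∧
      (g.getVert j ∈ W.L y ∨ ∃ i ≤ j, bb * t ≤ |(W.u (g.getVert i) : ℝ) - W.u z|)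
  · right
    obtain ⟨hj0, hjl, hjN, hjP⟩ := Nat.find_spec hex
    have hmin : ∀ i, 0 < i → i < Nat.find hex → g.getVert i ∉ W.L y := fun i h0 hi hL =>
      Nat.find_min hex hi ⟨h0, hi.le.trans hjl, (W.L_sub y hyN _ hL).1, Or.inl hL⟩
    generalize Nat.find hex = j at hj0 hjl hjN hjP hmin
    have hl1 : (g.take j).length = j := by rw [Walk.take_length, min_eq_left hjl]
    refine ⟨g.getVert j, g.take j, g.drop j, (g.append_take_drop_eq j).symm, by omega, hjN, ?_⟩
    obtain ⟨hrc, -⟩ := H119.reach_of_walk W k m (g.take j) (fun z hz => hr.same z (take_sub g j hz))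
    have hcy : W.idx (g.getVert j) ≤ W.idx y := by
      by_cases hcL : g.getVert j ∈ W.L y
      · exact (W.L_sub y hyN _ hcL).2
      · by_contra hcon
        push Not at hcon
        obtain ⟨x, hx, hxL⟩ := W.sep y hyN a ha _ hjN hay hcon.le (g.take j)
        obtain ⟨i, hi, hil, rfl⟩ := take_idx g j hx
        rcases Nat.eq_zero_or_pos i with h | h
        · subst h
          rw [Walk.getVert_zero] at hxL
          exact haL hxL
        · rcases hi.lt_or_eq with h' | h'
          · exact hmin i h h' hxL
          · subst h'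
            exact hcL hxL
    have hDc := hclock _ hjN hrc hcy
    have hv := H611.vert W (H188.nxt_scale W ρ) hw (g.take j)
    have hua : |(W.u a : ℝ) - W.u z| ≤ kap * t := (u_dist W a z).trans hda
    have htri : |(W.u (g.getVert j) : ℝ) - W.u z| ≤
        |(W.u (g.getVert j) : ℝ) - W.u a| + |(W.u a : ℝ) - W.u z| := abs_sub_le _ _ _
    by_cases hdev : ∃ i ≤ j, bb * t ≤ |(W.u (g.getVert i) : ℝ) - W.u z|
    · -- (beta)
      obtain ⟨i, hi, hib⟩ := hdev
      have hv2 := H611.vert W (H188.nxt_scale W ρ) hw (g.take i)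
      have hc := cost_take_le w g hi
      have htri2 : |(W.u (g.getVert i) : ℝ) - W.u z| ≤
        |(W.u (g.getVert i) : ℝ) - W.u a| + |(W.u a : ℝ) - W.u z| := abs_sub_le _ _ _
      have he1 : (0 : ℝ) ≤ e1 := by unfold e1; positivity
      have hen : e1 * W.nxt ρ a ≤ e1 * t := mul_le_mul_of_nonneg_left hnt he1
      generalize |(W.u (g.getVert j) : ℝ) - W.u z| = A at *
      generalize |(W.u (g.getVert i) : ℝ) - W.u z| = B at *
      generalize |(W.u (g.getVert j) : ℝ) - W.u a| = A' at *
      generalize |(W.u (g.getVert i) : ℝ) - W.u a| = B' at *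
      generalize |(W.u a : ℝ) - W.u z| = E at *
      generalize cost w (g.take j) = X at *
      generalize cost w (g.take i) = Y at *
      generalize W.nxt ρ a = n at *
      unfold kap cp at hDc
      unfold kap at hua
      unfold bb at hib
      unfold e1 at hv hv2 hen
      norm_num at hDc hua hib hv hv2 hen ⊢
      rcases le_total A B with hAB | hAB <;> linarith
    · -- (alpha)
      push Not at hdev
      have hcL : g.getVert j ∈ W.L y := by
        rcases hjP with h | ⟨i, hi, h⟩
        · exact h
        · exact absurd h (not_le.2 (hdev i hi))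
      have hdj := hdev j le_rfl
      have h1 := d_line W hyN hcL
      rw [← huz] at h1
      have h2 := d_tri W z a y
      have h3 := d_tri W a (g.getVert j) y
      rw [d_comm W z a] at h2
      have h4 : (9 / 10) * t ≤ W.d a (g.getVert j) := by
        have hkk : kap * t ≤ t / 100 := by
          unfold kap
          norm_num
          linarith
        have hbb : bb * t ≤ t / 100 := by
          unfold bb
          norm_num
          linarith
        linarith
      have h5 : C1 * d1 * W.nxt ρ a ≤ W.d a (g.getVert j) := by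
        have : C1 * d1 * W.nxt ρ a ≤ (9 / 10) * t := by
          unfold C1 d1
          norm_num
          linarith
        linarith
      have h6 := hw.lb _ _ (g.take j) h5
      generalize |(W.u (g.getVert j) : ℝ) - W.u z| = A at *
      generalize cost w (g.take j) = X at *
      generalize W.d a (g.getVert j) = Y at *
      unfold kap cp at hDc
      unfold bb at hdj
      unfold c2 at h6
      norm_num at hDc hdj h6 ⊢
      linarith
  · left
    push Not at hex
    have hbL : ∀ j, 0 < j → j ≤ g.length → g.getVert j ∈ W.N → g.getVert j ∉ W.L y :=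
      fun j h0 h1 h2 => (hex j h0 h1 h2).1
    obtain ⟨-, h2⟩ := hex g.length hlen le_rfl (by simpa using hb)
    have h3 := h2 g.length le_rfl
    rw [Walk.getVert_length] at h3
    have hby : W.idx b ≤ W.idx y := by
      by_contra hcon
      push Not at hcon
      obtain ⟨x, hx, hxL⟩ := W.sep y hyN a ha b hb hay hcon.le g
      obtain ⟨i, rfl, hil⟩ := Walk.mem_support_iff_exists_getVert.1 hx
      rcases Nat.eq_zero_or_pos i with h | h
      · subst h
        rw [Walk.getVert_zero] at hxL
        exact haL hxL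
      · exact hbL i h hil (W.L_sub y hyN _ hxL).1 hxL
    obtain ⟨hrc, -⟩ := H119.reach_of_walk W k m g hr.same
    have hDb := hclock b hb hrc hby
    have hc0 := cost_nonneg w g
    generalize |(W.u b : ℝ) - W.u z| = A at *
    generalize cost w g = X at *
    unfold kap cp at hDb
    unfold bb at h3
    unfold d1 at ht1 ⊢
    norm_num at hDb h3 ht1 ⊢
    linarith

/-- all stretches -/
theorem stretches {ρ w : V → ℝ} (hρ : W.Scale ρ) (hw : W.Inv (W.nxt ρ) w) {p a b : V}
    {k m : ℕ} (g : W.G.Walk a b) (hg : g.IsPath) (hr : W.Reg ρ p k m g) (ha : a ∈ W.N)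
    (hb : b ∈ W.N) :
    (W.D k m b : ℝ) ≤ W.D k m a + (5 / 4) * cost w g + 64 * d1 * ρ p := by
  induction hn : g.length using Nat.strong_induction_on generalizing a with
  | _ n ih =>
    have hd : 0 ≤ 64 * d1 * ρ p := by
      have : (2 : ℝ) ^ 100 ≤ ρ p := hr.big
      have h0 : 0 ≤ ρ p := le_trans (by positivity) this
      unfold d1; positivity
    by_cases hne : a = b
    · subst hne
      have := cost_nonneg w g
      linarith
    rcases stretch W hρ hw g hg hr ha hb hne with h | ⟨c, g1, g2, h1, h2, h3, h4⟩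
    · exact h
    · have hs1 : ∀ z ∈ g2.support, z ∈ g.support := fun z hz => by
        rw [h1, Walk.mem_support_append_iff]; exact Or.inr hz
      have hcs : c ∈ g.support := hs1 c g2.start_mem_support
      have hlen : g.length = g1.length + g2.length := by rw [h1, Walk.length_append]
      have hr2 : W.Reg ρ p k m g2 :=
        { m16 := hr.m16
          big := hr.big
          lo := hr.lo
          hi := hr.hi
          ball := fun z hz => hr.ball z (hs1 z hz)
          band := fun z hz => hr.band z (hs1 z hz)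
          same := fun z hz => by rw [hr.same z (hs1 z hz), hr.same c hcs] }
      have hg2 : g2.IsPath := by
        rw [h1] at hg
        exact hg.of_append_right
      have := ih g2.length (by omega) g2 hg2 hr2 h3 rfl
      rw [h1, cost_append']
      linarith

end Vale.Agent.P235.STO.H651
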